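import Vale.Agent.P275.H490.Defs

/-!
# Row FIN: reading off the table
-/

namespace Vale.Agent.P275.H781

open scoped BigOperators Topology
open Filter Vale.Agent.P275.H341 Vale.Agent.P275.H490

theorem sqrt_inv_tendsto :
    Tendsto (fun p : ℕ => ((Real.sqrt p : ℝ) : ℂ)⁻¹) atTop (𝓝 0) := by
  have h1 : Tendsto (fun p : ℕ => (Real.sqrt (p : ℝ))⁻¹) atTop (𝓝 0) :=
    tendsto_inv_atTop_zero.comp (Real.tendsto_sqrt_atTop.comp tendsto_natCast_atTop_atTop)
  have h2 := (Complex.continuous_ofReal.tendsto 0).comp h1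
  rw [Complex.ofReal_zero] at h2
  refine h2.congr fun p => ?_
  simp

theorem sqrt_ne {p : ℕ} (hp : 1 ≤ p) : ((Real.sqrt p : ℝ) : ℂ) ≠ 0 := by
  have : (0 : ℝ) < Real.sqrt p := Real.sqrt_pos.2 (by exact_mod_cast hp)
  exact_mod_cast this.ne'

theorem pw_eq {s : ℂ} (hs : s ≠ 0) {R j w : ℕ} (hj : j ≤ w) (hw : w ≤ 4 * R) :
    s ^ (4 * R - w) / s ^ (4 * R - j) = (s⁻¹) ^ (w - j) := by
  have e : 4 * R - j = (4 * R - w) + (w - j) := by omega
  rw [e, pow_add, inv_pow]
  have := pow_ne_zero (4 * R - w) hs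
  field_simp

theorem limG (R j : ℕ) (h : ℕ → ℕ → ℕ) (h0 : ∀ k w, w < j → h k w = 0) :
    Tendsto (fun p : ℕ => (∑ k ∈ Finset.range (2 * R + 1), ∑ w ∈ Finset.range (2 * k + 1),
      (-1 : ℂ) ^ k * (h k w : ℂ) * ((Real.sqrt p : ℝ) : ℂ) ^ (4 * R - w)) /
        ((Real.sqrt p : ℝ) : ℂ) ^ (4 * R - j)) atTop
      (𝓝 (∑ k ∈ Finset.range (2 * R + 1), ∑ w ∈ Finset.range (2 * k + 1),
        (-1 : ℂ) ^ k * (h k w : ℂ) * (if w = j then 1 else 0))) := by
  simp_rw [Finset.sum_div, mul_div_assoc]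
  refine tendsto_finsetSum _ fun k hk => tendsto_finsetSum _ fun w hw => ?_
  rw [Finset.mem_range] at hk hw
  rcases lt_or_ge w j with hwj | hwj
  · simp [h0 k w hwj]
  · refine Tendsto.const_mul _ ?_
    have h1 : Tendsto (fun p : ℕ => (((Real.sqrt p : ℝ) : ℂ)⁻¹) ^ (w - j)) atTop
        (𝓝 (0 ^ (w - j))) := sqrt_inv_tendsto.pow _
    have e : (0 : ℂ) ^ (w - j) = if w = j then 1 else 0 := by
      split_ifs with hh
      · subst hh; simp
      · exact zero_pow (by omega)
    rw [← e]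
    refine h1.congr' ?_
    filter_upwards [eventually_ge_atTop 1] with p hp
    exact (pw_eq (sqrt_ne hp) hwj (by omega)).symm

theorem sum_col (R j : ℕ) (h : ℕ → ℕ → ℕ) (hs : ∀ k w, h k w ≠ 0 → k ≤ w ∧ w ≤ 2 * k) :
    ∑ k ∈ Finset.range (2 * R + 1), ∑ w ∈ Finset.range (2 * k + 1),
        (-1 : ℂ) ^ k * (h k w : ℂ) * (if w = j then 1 else 0) =
      ∑ k ∈ Finset.range (2 * R + 1), (-1 : ℂ) ^ k * (h k j : ℂ) := by
  refine Finset.sum_congr rfl fun k _ => ?_
  simp only [mul_ite, mul_one, mul_zero, Finset.sum_ite_eq', Finset.mem_range]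
  split_ifs with hh
  · rfl
  · have : h k j = 0 := by
      by_contra h1
      have := (hs k j h1).2
      omega
    simp [this]

theorem rowFIN : RowFIN := by
  intro D R g M N hg hM hDR hN h hsupp hlow hsum E hE hp
  set l : Filter ℕ := atTop ⊓ 𝓟 {p : ℕ | p.Prime ∧ p ≡ 1 [MOD M]} with hl
  have hne : l.NeBot := by
    rw [hl, ← frequently_mem_iff_neBot]
    exact Nat.frequently_atTop_modEq_one (by omega)
  have hmem : ∀ᶠ p in l, p.Prime ∧ p ≡ 1 [MOD M] :=
    (eventually_principal.2 fun p hp => hp).filter_mono inf_le_right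
  have hB : Tendsto (fun p : ℕ => ((p : ℂ) / (p + (-1))) ^ (2 * g - 2)) atTop (𝓝 1) := by
    have := (tendsto_natCast_div_add_atTop (-1 : ℂ)).pow (2 * g - 2)
    simpa using this
  have hA : Tendsto (fun q : ℕ => (E q / (q : ℂ) ^ N - 0) * q) atTop (𝓝 (-(2 * g - 2))) := hE
  have hAB := (hA.mul hB).mono_left (inf_le_left : l ≤ atTop)
  rw [mul_one] at hAB
  have key : Tendsto (fun p : ℕ => (∑ k ∈ Finset.range (2 * R + 1),
      ∑ w ∈ Finset.range (2 * k + 1),
      (-1 : ℂ) ^ k * (h k w : ℂ) * ((Real.sqrt p : ℝ) : ℂ) ^ (4 * R - w)) /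
        ((Real.sqrt p : ℝ) : ℂ) ^ (4 * R - (2 * D + 2))) l (𝓝 (-(2 * g - 2))) := by
    refine hAB.congr' ?_
    filter_upwards [hmem] with p hpp
    have h1 := hp p hpp.1 hpp.2
    have hp2 : 2 ≤ p := hpp.1.two_le
    have hpc : (p : ℂ) ≠ 0 := by
      have : p ≠ 0 := by omega
      exact_mod_cast this
    have hp1 : (p : ℂ) - 1 ≠ 0 := by
      intro h0
      have : (p : ℂ) = 1 := by linear_combination h0
      have : p = 1 := by exact_mod_cast this
      omega
    have hsq : ((Real.sqrt p : ℝ) : ℂ) ^ 2 = p := by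
      rw [← Complex.ofReal_pow, Real.sq_sqrt (Nat.cast_nonneg p)]
      simp
    have e1 : ((Real.sqrt p : ℝ) : ℂ) ^ (4 * R - (2 * D + 2)) = (p : ℂ) ^ (2 * R - D - 1) := by
      rw [← hsq, ← pow_mul]
      congr 1
      omega
    have e2 : N = (2 * g - 2) + 1 + (2 * R - D - 1) := by omega
    rw [e1, ← h1, e2, pow_add, pow_add, pow_one, sub_zero, div_pow, ← sub_eq_add_neg]
    have := pow_ne_zero (2 * g - 2) hpc
    have := pow_ne_zero (2 * g - 2) hp1
    have := pow_ne_zero (2 * R - D - 1) hpc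
    field_simp
  have hz1 : ∀ k w, w < 2 * D + 1 → h k w = 0 := by
    intro k w hw
    by_contra h1
    have h2 := hsupp k w h1
    exact h1 (hlow k w (by omega))
  -- first step
  have s1 := (limG R (2 * D + 1) h hz1).mono_left (inf_le_left : l ≤ atTop)
  have s1' : Tendsto (fun p : ℕ => (∑ k ∈ Finset.range (2 * R + 1),
      ∑ w ∈ Finset.range (2 * k + 1),
      (-1 : ℂ) ^ k * (h k w : ℂ) * ((Real.sqrt p : ℝ) : ℂ) ^ (4 * R - w)) /
        ((Real.sqrt p : ℝ) : ℂ) ^ (4 * R - (2 * D + 1))) l (𝓝 0) := by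
    have h1 := key.mul (sqrt_inv_tendsto.mono_left (inf_le_left : l ≤ atTop))
    rw [mul_zero] at h1
    refine h1.congr' ?_
    filter_upwards [hmem] with p hpp
    have hs := sqrt_ne (show 1 ≤ p from hpp.1.one_le)
    have e : 4 * R - (2 * D + 1) = 4 * R - (2 * D + 2) + 1 := by omega
    rw [e, pow_succ]
    have := pow_ne_zero (4 * R - (2 * D + 2)) hs
    rw [div_mul_eq_div_div, div_eq_mul_inv (_ / _)]
  have u1 := tendsto_nhds_unique s1 s1'
  rw [sum_col R _ h hsupp, Finset.sum_eq_single (2 * D + 1)] at u1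
  rotate_left
  · intro k _ hk
    have : h k (2 * D + 1) = 0 := by
      by_contra h1
      have h2 := hsupp k _ h1
      exact h1 (hlow k _ (by omega))
    simp [this]
  · intro hk
    rw [Finset.mem_range] at hk
    omega
  have z1 : h (2 * D + 1) (2 * D + 1) = 0 := by
    have : (-1 : ℂ) ^ (2 * D + 1) ≠ 0 := pow_ne_zero _ (by norm_num)
    have := (mul_eq_zero.1 u1).resolve_left this
    exact_mod_cast this
  have hz2 : ∀ k w, w < 2 * D + 2 → h k w = 0 := by
    intro k w hw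
    rcases Nat.lt_or_ge w (2 * D + 1) with h1 | h1
    · exact hz1 k w h1
    · have hw2 : w = 2 * D + 1 := by omega
      subst hw2
      by_contra h1
      have h2 := hsupp k _ h1
      rcases Nat.lt_or_ge k (2 * D + 1) with h3 | h3
      · exact h1 (hlow k _ (by omega))
      · have : k = 2 * D + 1 := by omega
        subst this
        exact h1 z1
  have s2 := (limG R (2 * D + 2) h hz2).mono_left (inf_le_left : l ≤ atTop)
  have u2 := tendsto_nhds_unique s2 key
  rw [sum_col R _ h hsupp, Finset.sum_eq_add (2 * D + 1) (2 * D + 2) (by omega)] at u2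
  rotate_left
  · intro k _ hk
    have : h k (2 * D + 2) = 0 := by
      by_contra h1
      have h2 := hsupp k _ h1
      have h3 : ¬ k ≤ 2 * D := fun h3 => h1 (hlow k _ h3)
      omega
    simp [this]
  · intro hk
    rw [Finset.mem_range] at hk
    omega
  · intro hk
    rw [Finset.mem_range] at hk
    omega
  have o1 : (-1 : ℂ) ^ (2 * D + 1) = -1 := Odd.neg_one_pow ⟨D, rfl⟩
  have o2 : (-1 : ℂ) ^ (2 * D + 2) = 1 := Even.neg_one_pow ⟨D + 1, by ring⟩
  rw [o1, o2] at u2
  have u3 : h (2 * D + 1) (2 * D + 2) + 2 = h (2 * D + 2) (2 * D + 2) + 2 * g := by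
    have : ((h (2 * D + 1) (2 * D + 2) : ℕ) : ℂ) + 2 = (h (2 * D + 2) (2 * D + 2) : ℕ) + 2 * g := by
      linear_combination -u2
    exact_mod_cast this
  have m1 : 2 * D + 2 ∈ Finset.range (2 * (2 * D + 1) + 1) := by
    rw [Finset.mem_range]; omega
  have u4 : h (2 * D + 1) (2 * D + 2) ≤ 2 * g - 2 := by
    rw [← hsum]
    exact Finset.single_le_sum (f := fun w => h (2 * D + 1) w) (fun _ _ => Nat.zero_le _) m1
  have u5 : h (2 * D + 2) (2 * D + 2) = 0 := by omega
  have u6 : h (2 * D + 1) (2 * D + 2) = 2 * g - 2 := by omega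
  refine ⟨fun w => ?_, u5⟩
  split_ifs with hw
  · subst hw
    rw [show 2 * (D + 1) = 2 * D + 2 by ring]
    exact u6
  · by_contra h1
    have h2 := hsupp _ _ h1
    have m2 : w ∈ (Finset.range (2 * (2 * D + 1) + 1)).erase (2 * D + 2) := by
      rw [Finset.mem_erase, Finset.mem_range]
      omega
    have h3 := Finset.add_sum_erase _ (fun w => h (2 * D + 1) w) m1
    have h4 := Finset.single_le_sum (f := fun w => h (2 * D + 1) w)
      (fun _ _ => Nat.zero_le _) m2
    omega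

end Vale.Agent.P275.H781

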